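import Vale.Agent.P031.Abs
import Vale.Agent.P031.Dense

/-! P031, question 2 (Erdős-Hall): `c` is a cluster point of `V(cx)/V(x)` for every `c > 1`. -/

namespace Vale.Agent.Results.P031.ClusterPoint

open Filter Topology

/-- `V(x)`: the number of distinct values `v ≤ x` of Euler's totient function. -/
noncomputable def V (x : ℝ) : ℕ :=
  Set.ncard {v : ℕ | (∃ n : ℕ, 1 ≤ n ∧ Nat.totient n = v) ∧ (v : ℝ) ≤ x}

theorem fin (x : ℝ) :
    {v : ℕ | (∃ n : ℕ, 1 ≤ n ∧ Nat.totient n = v) ∧ (v : ℝ) ≤ x}.Finite := by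
  refine (Set.finite_Iic ⌊x⌋₊).subset ?_
  rintro v ⟨_, hv⟩
  rw [Set.mem_Iic]
  exact Nat.le_floor hv

theorem one_le {x : ℝ} (hx : 1 ≤ x) : 1 ≤ V x := by
  have : 0 < V x := by
    rw [V, Set.ncard_pos (fin x)]
    exact ⟨1, ⟨1, le_rfl, Nat.totient_one⟩, by simpa using hx⟩
  omega

theorem le_self {x : ℝ} (hx : 1 ≤ x) : (V x : ℝ) ≤ x := by
  have h : V x ≤ ⌊x⌋₊ := by
    have h1 : {v : ℕ | (∃ n : ℕ, 1 ≤ n ∧ Nat.totient n = v) ∧ (v : ℝ) ≤ x} ⊆
        ((Finset.Icc 1 ⌊x⌋₊ : Finset ℕ) : Set ℕ) := by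
      rintro v ⟨⟨n, hn, hv⟩, hvx⟩
      rw [Finset.coe_Icc, Set.mem_Icc]
      refine ⟨?_, Nat.le_floor hvx⟩
      rw [← hv]
      exact Nat.totient_pos.2 hn
    have h2 := Set.ncard_le_ncard h1 (Finset.finite_toSet _)
    rw [Set.ncard_coe_finset, Nat.card_Icc] at h2
    unfold V
    omega
  exact (Nat.cast_le.2 h).trans (Nat.floor_le (by linarith))

theorem mono : Monotone V := by
  intro x y hxy
  refine Set.ncard_le_ncard ?_ (fin y)
  rintro v ⟨h1, h2⟩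
  exact ⟨h1, h2.trans hxy⟩

theorem add_le (x s : ℝ) (hx : 0 ≤ x) (hs : 0 ≤ s) : (V (x + s) : ℝ) ≤ V x + s + 1 := by
  have h1 : {v : ℕ | (∃ n : ℕ, 1 ≤ n ∧ Nat.totient n = v) ∧ (v : ℝ) ≤ x + s} ⊆
      {v : ℕ | (∃ n : ℕ, 1 ≤ n ∧ Nat.totient n = v) ∧ (v : ℝ) ≤ x} ∪
      ((Finset.Ioc ⌊x⌋₊ ⌊x + s⌋₊ : Finset ℕ) : Set ℕ) := by
    rintro v ⟨h, hv⟩
    by_cases hvx : (v : ℝ) ≤ x
    · exact Or.inl ⟨h, hvx⟩
    · right
      push Not at hvx
      rw [Finset.coe_Ioc, Set.mem_Ioc]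
      exact ⟨(Nat.floor_lt hx).2 hvx, Nat.le_floor hv⟩
  have h2 := Set.ncard_le_ncard h1 ((fin x).union (Finset.finite_toSet _))
  have h3 := h2.trans (Set.ncard_union_le _ _)
  rw [Set.ncard_coe_finset, Nat.card_Ioc] at h3
  have h4 : V (x + s) ≤ V x + (⌊x + s⌋₊ - ⌊x⌋₊) := h3
  have h5 : ⌊x⌋₊ ≤ ⌊x + s⌋₊ := Nat.floor_le_floor (by linarith)
  have h6 : (V (x + s) : ℝ) ≤ V x + ((⌊x + s⌋₊ : ℝ) - ⌊x⌋₊) := by
    have := (Nat.cast_le (α := ℝ)).2 h4
    rw [Nat.cast_add, Nat.cast_sub h5] at this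
    exact this
  have h7 := Nat.floor_le (show 0 ≤ x + s by linarith)
  have h8 := Nat.lt_floor_add_one x
  linarith

theorem pi_le (x : ℝ) (hx : 0 ≤ x) : Nat.primeCounting ⌊x⌋₊ ≤ V x := by
  have h0 : (Finset.image (fun p : ℕ => p - 1) (Nat.primesLE ⌊x⌋₊)).card =
      Nat.primeCounting ⌊x⌋₊ := by
    rw [Finset.card_image_of_injOn, Nat.primesLE_card_eq_primeCounting]
    intro p hp q hq hpq
    have hp' := (Nat.prime_of_mem_primesLE hp).one_lt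
    have hq' := (Nat.prime_of_mem_primesLE hq).one_lt
    simp only at hpq
    omega
  rw [← h0, ← Set.ncard_coe_finset, V]
  refine Set.ncard_le_ncard ?_ (fin x)
  intro v hv
  rw [Finset.mem_coe, Finset.mem_image] at hv
  obtain ⟨p, hp, rfl⟩ := hv
  have hpp := Nat.prime_of_mem_primesLE hp
  have hle : p ≤ ⌊x⌋₊ := Nat.le_of_mem_primesLE hp
  refine ⟨⟨p, hpp.one_le, Nat.totient_prime hpp⟩, ?_⟩
  have h1 : (p : ℝ) ≤ x := (Nat.cast_le.2 hle).trans (Nat.floor_le hx)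
  have h2 : ((p - 1 : ℕ) : ℝ) ≤ p := Nat.cast_le.2 (Nat.sub_le p 1)
  exact h2.trans h1

theorem low (x : ℝ) (hx : 1 < x) :
    (x - 1) * Real.log 2 - Real.log (x + 2) ≤ (V x : ℝ) * Real.log x := by
  have h1 := Chebyshev.psi_ge' (x := x) (by linarith)
  have h2 := Chebyshev.psi_le_primeCounting_mul_log' x
  have h3 : (Nat.primeCounting ⌊x⌋₊ : ℝ) ≤ V x := Nat.cast_le.2 (pi_le x (by linarith))
  have h4 : 0 ≤ Real.log x := Real.log_nonneg hx.le
  exact (h1.trans h2).trans (mul_le_mul_of_nonneg_right h3 h4)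

theorem top : Tendsto (fun x : ℝ => (V x : ℝ)) atTop atTop := by
  have h1 : Tendsto (fun x : ℝ => (Nat.primeCounting ⌊x⌋₊ : ℝ)) atTop atTop :=
    tendsto_natCast_atTop_atTop.comp
      (Nat.tendsto_primeCounting.comp tendsto_nat_floor_atTop)
  refine tendsto_atTop_mono' atTop ?_ h1
  filter_upwards [eventually_ge_atTop (0 : ℝ)] with x hx
  exact Nat.cast_le.2 (pi_le x hx)

/-- (1) For every real `c > 1`, `c` is a cluster point of `V(cx)/V(x)` as `x → ∞`; so the limit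
of `V(cx)/V(x)` equals `c` as soon as it exists.
(2) If this limit exists for two numbers `a, b > 1` with `log a / log b` irrational, then
`V(cx)/V(x) → c` for every real `c > 0`. -/
theorem result :
    (∀ c : ℝ, 1 < c →
      MapClusterPt c atTop (fun x : ℝ => (V (c * x) : ℝ) / V x) ∧
      (∀ L : ℝ, Tendsto (fun x : ℝ => (V (c * x) : ℝ) / V x) atTop (𝓝 L) → L = c)) ∧
    (∀ a b : ℝ, 1 < a → 1 < b → Irrational (Real.log a / Real.log b) →
      (∃ L : ℝ, Tendsto (fun x : ℝ => (V (a * x) : ℝ) / V x) atTop (𝓝 L)) →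
      (∃ L : ℝ, Tendsto (fun x : ℝ => (V (b * x) : ℝ) / V x) atTop (𝓝 L)) →
      ∀ c : ℝ, 0 < c → Tendsto (fun x : ℝ => (V (c * x) : ℝ) / V x) atTop (𝓝 c)) := by
  have key : ∀ c : ℝ, 1 < c →
      MapClusterPt c atTop (fun x : ℝ => (V (c * x) : ℝ) / V x) ∧
      (∀ L : ℝ, Tendsto (fun x : ℝ => (V (c * x) : ℝ) / V x) atTop (𝓝 L) → L = c) := by
    intro c hc
    have h := Vale.P031.cluster (fun x => (V x : ℝ)) c hc
      (fun x hx => by exact_mod_cast one_le hx) (fun x hx => le_self hx)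
      (fun x y hxy => Nat.cast_le.2 (mono hxy)) add_le top low
    refine ⟨h, fun L hL => ?_⟩
    exact (eq_of_nhds_neBot (ClusterPt.mono h hL)).symm
  refine ⟨key, ?_⟩
  intro a b ha hb hab hLa hLb
  obtain ⟨L, hL⟩ := hLa
  obtain ⟨M, hM⟩ := hLb
  have e1 := (key a ha).2 L hL
  have e2 := (key b hb).2 M hM
  rw [e1] at hL
  rw [e2] at hM
  exact Vale.P031.all_of_two (fun x => (V x : ℝ)) (fun x y hxy => Nat.cast_le.2 (mono hxy))
    (top.eventually_gt_atTop 0) a b ha hb hab hL hM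

end Vale.Agent.Results.P031.ClusterPoint
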